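import Claimed.Agent.R315.Pack002
import Claimed.Agent.R315.Pack006

/-!
# Row 314 (S0570): closed aspherical manifolds with `scal ≥ 0` are flat.  Core definitions

Language: the core of row 315 (`E`, `Ten`, `IsParam`, `IsMfd`, `cm`, `rdist`, `IsMetricOn`, `IsProperOn`, `scal`, `lap`,
`gradSq`, `Dsc`, `SmoothAlong`, `Drift`, `HasCover`, the `if_*` interface and the `rm_*` calculus).
`Def_0498` and `Def_0499` are textually identical (bridge: `R314/Bridge.lean`).

* `cube k`, `cbd k`, `Fill k S` : every continuous map of the boundary of the `k`-cube to `S` extends to the cube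
  (`k = 0`: `S` nonempty; `k = 1`: path connected; `k = 2`: simply connected; `k ≥ 3`: `π_{k-1} = 0`).
* `IsLocI`, `IsIso` : (local) isometries of `(X, g)`, at the level of parametrisations.
* `cb X g x R` : closed metric ball.
* `UCont n X g` : complete connected `n`-manifold, closed in `E N`, all `Fill k`, cocompact isometry group.
* `Flat`, `RicFlat`.
* `IsCov n X M P` : the linear map `P` restricts to a surjective local diffeomorphism `X → M`.
Captain: helper258.
-/

set_option autoImplicit false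
open scoped ContDiff Topology
open Set Claims.C0499 Claimed.Agent.R315

namespace Claimed.Agent.R314

/-- the standard `k`-cube. -/
def cube (k : ℕ) : Set (Fin k → ℝ) := Icc 0 1

/-- the boundary of the standard `k`-cube. -/
def cbd (k : ℕ) : Set (Fin k → ℝ) := {x | x ∈ cube k ∧ ∃ i, x i = 0 ∨ x i = 1}

/-- every continuous map `cbd k → S` extends to a continuous map `cube k → S`. -/
def Fill {Y : Type} [TopologicalSpace Y] (k : ℕ) (S : Set Y) : Prop :=
  ∀ f : (Fin k → ℝ) → Y, ContinuousOn f (cbd k) → MapsTo f (cbd k) S →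
    ∃ F : (Fin k → ℝ) → Y, ContinuousOn F (cube k) ∧ MapsTo F (cube k) S ∧ EqOn F f (cbd k)

variable {V : Type} [NormedAddCommGroup V] [NormedSpace ℝ V]

/-- `γ` maps parametrisations of `X` to parametrisations of `X` with the same metric matrix. -/
structure IsLocI (n : ℕ) (X : Set V) (g : Ten V) (γ : V → V) : Prop where
  param : ∀ (ψ : E n → V) (U : Set (E n)), IsParam X ψ U → IsParam X (γ ∘ ψ) U
  cm_eq : ∀ (ψ : E n → V) (U : Set (E n)), IsParam X ψ U → ∀ u ∈ U, cm g (γ ∘ ψ) u = cm g ψ u

/-- isometry of `(X, g)` onto itself (only the values on `X` matter). -/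
def IsIso (n : ℕ) (X : Set V) (g : Ten V) (γ : V → V) : Prop :=
  IsLocI n X g γ ∧ ∃ γ' : V → V, IsLocI n X g γ' ∧ (∀ x ∈ X, γ' (γ x) = x) ∧ ∀ x ∈ X, γ (γ' x) = x

/-- closed metric ball of `(X, g)`. -/
def cb (X : Set V) (g : Ten V) (x : V) (R : ℝ) : Set V := {y | y ∈ X ∧ rdist X g x y ≤ R}

/-- complete connected Riemannian `n`-manifold, closed in the ambient space, weakly contractible (`Fill k` for all `k`),
with a cocompact group of isometries. -/
structure UCont (n : ℕ) (X : Set V) (g : Ten V) : Prop where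
  mfd : IsMfd n X
  closed : IsClosed X
  conn : IsConnected X
  met : IsMetricOn n X g
  proper : IsProperOn X g
  fill : ∀ k, Fill k X
  cocpt : ∃ K : Set V, IsCompact K ∧ K ⊆ X ∧ ∀ x ∈ X, ∃ γ : V → V, IsIso n X g γ ∧ γ x ∈ K

/-- the curvature tensor vanishes in every parametrisation. -/
def Flat (n : ℕ) (M : Set V) (g : Ten V) : Prop :=
  ∀ (ψ : E n → V) (U : Set (E n)), IsParam M ψ U → ∀ u ∈ U, ∀ l i j k : Fin n,
    riemannCoord (cm g ψ) u l i j k = 0

/-- the Ricci tensor vanishes in every parametrisation. -/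
def RicFlat (n : ℕ) (M : Set V) (g : Ten V) : Prop :=
  ∀ (ψ : E n → V) (U : Set (E n)), IsParam M ψ U → ∀ u ∈ U, ∀ j k : Fin n,
    ricciCoord (cm g ψ) u j k = 0

variable {V' : Type} [NormedAddCommGroup V'] [NormedSpace ℝ V']

/-- the linear map `P : V' → V` restricts to a surjective local diffeomorphism `X → M`
(formulated with parametrisations, in both directions). -/
structure IsCov (n : ℕ) (X : Set V') (M : Set V) (P : V' →L[ℝ] V) : Prop where
  mapsTo : MapsTo P X M
  surj : SurjOn P X M
  down : ∀ (ψ : E n → V') (U : Set (E n)), IsParam X ψ U → ∀ u ∈ U,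
    ∃ W : Set (E n), IsOpen W ∧ u ∈ W ∧ W ⊆ U ∧ IsParam M (P ∘ ψ) W
  up : ∀ (φ : E n → V) (U : Set (E n)), IsParam M φ U → ∀ u ∈ U, ∀ x ∈ X, P x = φ u →
    ∃ (ψ : E n → V') (W : Set (E n)), IsOpen W ∧ u ∈ W ∧ W ⊆ U ∧ IsParam X ψ W ∧ ψ u = x ∧
      ∀ w ∈ W, P (ψ w) = φ w

end Claimed.Agent.R314
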