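import Claimed.Agent.R314.Defs
import Claimed.Agent.R315.Pack004

/-!
# Row 314: local isometries (COPY of `R315/If/Iso` = part of `R315/Pack009`, which is too heavy to be imported; author helper274)

`LocIso d M h P H ι`: every point of `M` lies in a parametrisation `(ψ,U)` of `M` such that
`(ι ∘ ψ, U)` is a parametrisation of `P` and `cm H (ι ∘ ψ) = cm h ψ` on `U`.
(Open embeddings, isometric copies, coverings `ι = fst : X → M`, ...)

Then `scal`, `lap`, `gradIp`, `gradSq`, `Dsc` correspond: `lap d P H F (ι x) = lap d M h (F ∘ ι) x`, ...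
`LocIso.of_forall` (all small parametrisations are mapped to parametrisations),
`locIso_pullL` (`ι` linear, `h = ι^* H`).
Owner: helper274.
-/

set_option autoImplicit false
set_option linter.unusedSectionVars false

open scoped Topology ContDiff
open Claims.C0499 Set Function Filter Claimed.Agent.R315

namespace Claimed.Agent.R314

variable {d : ℕ}
variable {V : Type} [NormedAddCommGroup V] [NormedSpace ℝ V] [FiniteDimensional ℝ V]
variable {V' : Type} [NormedAddCommGroup V'] [NormedSpace ℝ V'] [FiniteDimensional ℝ V']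
variable {F : Type} [NormedAddCommGroup F] [NormedSpace ℝ F]

/-- `ι` is locally an isometry of `(M,h)` onto open pieces of `(P,H)` -/
def LocIso (d : ℕ) (M : Set V) (h : Ten V) (P : Set V') (H : Ten V') (ι : V → V') : Prop :=
  ∀ x ∈ M, ∃ (ψ : E d → V) (U : Set (E d)), IsParam M ψ U ∧ x ∈ ψ '' U ∧ IsParam P (ι ∘ ψ) U ∧
    ∀ u ∈ U, cm H (ι ∘ ψ) u = cm h ψ u

variable {M : Set V} {h : Ten V} {P : Set V'} {H : Ten V'} {ι : V → V'}

theorem cm_eventuallyEq_of_eqOn {G G' : E d → Matrix (Fin d) (Fin d) ℝ} {U : Set (E d)}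
    (hU : IsOpen U) {u : E d} (hu : u ∈ U) (he : ∀ w ∈ U, G w = G' w) : G =ᶠ[𝓝 u] G' := by
  filter_upwards [hU.mem_nhds hu] with w hw
  exact he w hw

namespace LocIso

theorem mapsTo (hι : LocIso d M h P H ι) : MapsTo ι M P := by
  intro x hx
  obtain ⟨ψ, U, -, ⟨u, hu, rfl⟩, h2, -⟩ := hι x hx
  exact if_mem h2 hu

theorem mfd (hι : LocIso d M h P H ι) : IsMfd d M := by
  intro x hx
  obtain ⟨ψ, U, h1, hmem, -, -⟩ := hι x hx
  exact ⟨ψ, U, h1, hmem⟩

theorem smooth (hι : LocIso d M h P H ι) {f : V' → F} (hf : SmoothAlong d P f) :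
    SmoothAlong d M (f ∘ ι) := by
  refine if_smoothAlong_of_atlas fun x hx => ?_
  obtain ⟨ψ, U, h1, hmem, h2, -⟩ := hι x hx
  exact ⟨ψ, U, h1, hmem, hf (ι ∘ ψ) U h2⟩

theorem metric (hι : LocIso d M h P H ι) (hH : IsMetricOn d P H) : IsMetricOn d M h := by
  refine if_isMetricOn_of_atlas fun x hx => ?_
  obtain ⟨ψ, U, h1, hmem, h2, h3⟩ := hι x hx
  refine ⟨ψ, U, h1, hmem, fun i j => ?_, fun u hu => ?_⟩
  · exact ((hH _ U h2).1 i j).congr fun u hu => by rw [h3 u hu]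
  · rw [← h3 u hu]
    exact (hH _ U h2).2 u hu

theorem scal (hι : LocIso d M h P H ι) (hH : IsMetricOn d P H) {x : V} (hx : x ∈ M) :
    scal d P H (ι x) = Claimed.Agent.R315.scal d M h x := by
  obtain ⟨ψ, U, h1, ⟨u, hu, rfl⟩, h2, h3⟩ := hι x hx
  rw [if_scal_eq (hι.metric hH) h1 hu]
  have := if_scal_eq hH h2 hu
  rw [comp_apply] at this
  rw [this]
  exact if_scalar_congr (cm_eventuallyEq_of_eqOn (if_open h1) hu h3)

theorem lap (hι : LocIso d M h P H ι) (hH : IsMetricOn d P H) {f : V' → ℝ}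
    (hf : SmoothAlong d P f) {x : V} (hx : x ∈ M) :
    lap d P H f (ι x) = Claimed.Agent.R315.lap d M h (f ∘ ι) x := by
  obtain ⟨ψ, U, h1, ⟨u, hu, rfl⟩, h2, h3⟩ := hι x hx
  rw [if_lap_eq (hι.metric hH) (hι.smooth hf) h1 hu]
  have := if_lap_eq hH hf h2 hu
  rw [comp_apply] at this
  rw [this]
  exact if_lapC_congr (cm_eventuallyEq_of_eqOn (if_open h1) hu h3) EventuallyEq.rfl

theorem gradIp (hι : LocIso d M h P H ι) (hH : IsMetricOn d P H) {f k : V' → ℝ}
    (hf : SmoothAlong d P f) (hk : SmoothAlong d P k) {x : V} (hx : x ∈ M) :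
    gradIp d P H f k (ι x) = Claimed.Agent.R315.gradIp d M h (f ∘ ι) (k ∘ ι) x := by
  obtain ⟨ψ, U, h1, ⟨u, hu, rfl⟩, h2, h3⟩ := hι x hx
  rw [if_gradIp_eq (hι.metric hH) (hι.smooth hf) (hι.smooth hk) h1 hu]
  have := if_gradIp_eq hH hf hk h2 hu
  rw [comp_apply] at this
  rw [this]
  exact if_gradIpC_congr₂ (h3 u hu) EventuallyEq.rfl EventuallyEq.rfl

theorem gradSq (hι : LocIso d M h P H ι) (hH : IsMetricOn d P H) {f : V' → ℝ}
    (hf : SmoothAlong d P f) {x : V} (hx : x ∈ M) :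
    gradSq d P H f (ι x) = Claimed.Agent.R315.gradSq d M h (f ∘ ι) x := hι.gradIp hH hf hf hx

theorem Dsc (hι : LocIso d M h P H ι) (hH : IsMetricOn d P H) {t : V' → ℝ}
    (ht : SmoothAlong d P t) {x : V} (hx : x ∈ M) :
    Dsc d P H t (ι x) = Claimed.Agent.R315.Dsc d M h (t ∘ ι) x := by
  unfold Claimed.Agent.R315.Dsc
  rw [hι.scal hH hx, hι.lap hH ht hx, hι.gradSq hH ht hx]

/-- all parametrisations of `M` are mapped to parametrisations of `P` -/
theorem of_forall (hM : IsMfd d M)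
    (h1 : ∀ (ψ : E d → V) (U : Set (E d)), IsParam M ψ U → IsParam P (ι ∘ ψ) U)
    (h2 : ∀ (ψ : E d → V) (U : Set (E d)), IsParam M ψ U → ∀ u ∈ U, cm H (ι ∘ ψ) u = cm h ψ u) :
    LocIso d M h P H ι := by
  intro x hx
  obtain ⟨ψ, U, hp, hmem⟩ := hM x hx
  exact ⟨ψ, U, hp, hmem, h1 ψ U hp, h2 ψ U hp⟩

end LocIso

/-- the form of `ss_ext`: parametrisations of `M` with image in the open set `O` -/
theorem locIso_of_open {O : Set V} (hM : IsMfd d M) (hO : IsOpen O)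
    (h1 : ∀ (ψ : E d → V) (U : Set (E d)), IsParam M ψ U → ψ '' U ⊆ O → IsParam P (ι ∘ ψ) U)
    (h2 : ∀ (ψ : E d → V) (U : Set (E d)), IsParam M ψ U → ψ '' U ⊆ O → ∀ u ∈ U,
      cm H (ι ∘ ψ) u = cm h ψ u) : LocIso d (M ∩ O) h P H ι :=
  LocIso.of_forall (if_mfd_inter hM hO)
    (fun ψ U hp => h1 ψ U ((if_param_inter_iff hO).1 hp).1 ((if_param_inter_iff hO).1 hp).2)
    fun ψ U hp => h2 ψ U ((if_param_inter_iff hO).1 hp).1 ((if_param_inter_iff hO).1 hp).2

theorem cm_pullL (L : V →L[ℝ] V') (H : Ten V') {ψ : E d → V} {u : E d}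
    (hψ : DifferentiableAt ℝ ψ u) : cm H (L ∘ ψ) u = cm (if_pullL L H) ψ u := by
  have h1 : fderiv ℝ (L ∘ ψ) u = L.comp (fderiv ℝ ψ u) :=
    (L.hasFDerivAt.comp u hψ.hasFDerivAt).fderiv
  ext i j
  show H (L (ψ u)) (fderiv ℝ (L ∘ ψ) u (eb i)) (fderiv ℝ (L ∘ ψ) u (eb j)) = _
  rw [h1]
  rfl

/-- linear maps which are locally parametrisation preserving (graphs, coverings `fst : X → M`) -/
theorem locIso_pullL (L : V →L[ℝ] V') (H : Ten V')
    (h1 : ∀ x ∈ M, ∃ (ψ : E d → V) (U : Set (E d)), IsParam M ψ U ∧ x ∈ ψ '' U ∧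
      IsParam P (L ∘ ψ) U) : LocIso d M (if_pullL L H) P H L := by
  intro x hx
  obtain ⟨ψ, U, hp, hmem, hp'⟩ := h1 x hx
  exact ⟨ψ, U, hp, hmem, hp', fun u hu => cm_pullL L H (if_differentiableAt hp hu)⟩

end Claimed.Agent.R314
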