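import Claimed.Agent.R314.Defs
import Claimed.Agent.R314.LocIso
import Claimed.Agent.R315.Pack004

/-!
# Row 314: shared API of `IsLocI`, `IsIso`, `cb`, `UCont` (consumers: blocks T, C, UC, PROD)

Everything here is elementary.  Leaves `ISO-*` (plans in the docstrings).
Key point for `rdist`: an admissible curve `c` (`if_Adm X c`) is first reparametrised by `if_st` (`c ∘ if_st` maps ALL of `ℝ` into `X`, same length:
`if_integral_speed_comp`), then `γ ∘ c ∘ if_st` is `C¹` on `ℝ` (locally `(γ ∘ ψ) ∘ (lift of the curve)`, `if_adm_lift`) with the same speed (`cm_eq`, `if_speed_param`).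
-/

set_option autoImplicit false
set_option linter.unusedSectionVars false
open scoped ContDiff Topology
open Set Claims.C0499 Claimed.Agent.R315

namespace Claimed.Agent.R314

variable {V : Type} [NormedAddCommGroup V] [NormedSpace ℝ V] [FiniteDimensional ℝ V]
variable {n : ℕ} {X : Set V} {g : Ten V} {γ γ₁ γ₂ : V → V}

/-! ## local isometries -/

theorem isLocI_id : IsLocI n X g id := ⟨fun _ _ h => h, fun _ _ _ _ _ => rfl⟩

theorem IsLocI.comp (h₁ : IsLocI n X g γ₁) (h₂ : IsLocI n X g γ₂) : IsLocI n X g (γ₁ ∘ γ₂) :=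
  ⟨fun ψ U h => h₁.param _ U (h₂.param ψ U h), fun ψ U h u hu =>
    (h₁.cm_eq _ U (h₂.param ψ U h) u hu).trans (h₂.cm_eq ψ U h u hu)⟩

theorem IsLocI.mapsTo (h : IsLocI n X g γ) (hX : IsMfd n X) : MapsTo γ X X := by
  intro x hx
  obtain ⟨ψ, U, hp, u, hu, rfl⟩ := hX x hx
  exact if_mem (h.param ψ U hp) hu

theorem IsLocI.smoothAlong (h : IsLocI n X g γ) : SmoothAlong n X γ :=
  fun ψ U hp => if_smooth (h.param ψ U hp)

theorem IsLocI.continuousOn (h : IsLocI n X g γ) (hX : IsMfd n X) : ContinuousOn γ X :=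
  if_smoothAlong_continuousOn hX h.smoothAlong

theorem IsLocI.comp_smooth {F : Type} [NormedAddCommGroup F] [NormedSpace ℝ F] {f : V → F}
    (h : IsLocI n X g γ) (hf : SmoothAlong n X f) : SmoothAlong n X (f ∘ γ) :=
  fun ψ U hp => hf _ U (h.param ψ U hp)

theorem IsLocI.cm_eventuallyEq (h : IsLocI n X g γ) {ψ : E n → V} {U : Set (E n)}
    (hp : IsParam X ψ U) {u : E n} (hu : u ∈ U) : cm g (γ ∘ ψ) =ᶠ[𝓝 u] cm g ψ := by
  filter_upwards [(if_open hp).mem_nhds hu] with w hw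
  exact h.cm_eq ψ U hp w hw

/-- a `C¹` curve which stays in `X` for all times is locally `ψ ∘ υ`. -/
theorem iso_curve_lift (hX : IsMfd n X) {c : ℝ → V} (hc : ContDiff ℝ 1 c) (hcX : ∀ t, c t ∈ X) (t₀ : ℝ) :
    ∃ (ψ : E n → V) (U : Set (E n)) (υ : ℝ → E n) (I : Set ℝ), IsParam X ψ U ∧ IsOpen I ∧ t₀ ∈ I ∧
      ContDiffOn ℝ 1 υ I ∧ MapsTo υ I U ∧ ∀ t ∈ I, c t = ψ (υ t) := by
  obtain ⟨ψ, U, hp, u₀, hu₀, he⟩ := hX (c t₀) (hcX t₀)
  obtain ⟨ρ, O, hO, hmem, hρ, hmaps, hinv⟩ := if_exists_retr hp hu₀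
  refine ⟨ψ, U, fun t => ρ (c t), c ⁻¹' O, hp, hO.preimage hc.continuous, by rw [mem_preimage, ← he]; exact hmem,
    (hρ.of_le (by decide)).comp hc.contDiffOn fun t ht => ht, fun t ht => hmaps ht, fun t ht => ?_⟩
  obtain ⟨h1, h2⟩ := hinv (c t) ⟨hcX t, ht⟩
  show c t = ψ (ρ (c t))
  rw [h2, if_rightInv h1]

/-- the image of a curve in `X` under a local isometry: `C¹`, same speed. -/
theorem IsLocI.curve (h : IsLocI n X g γ) (hX : IsMfd n X) {c : ℝ → V} (hc : ContDiff ℝ 1 c) (hcX : ∀ t, c t ∈ X) :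
    ContDiff ℝ 1 (γ ∘ c) ∧ ∀ t, if_speed g (γ ∘ c) t = if_speed g c t := by
  have key : ∀ t₀, ContDiffAt ℝ 1 (γ ∘ c) t₀ ∧ if_speed g (γ ∘ c) t₀ = if_speed g c t₀ := by
    intro t₀
    obtain ⟨ψ, U, υ, I, hp, hI, ht₀, hυ, hmaps, heq⟩ := iso_curve_lift hX hc hcX t₀
    have hIn : I ∈ 𝓝 t₀ := hI.mem_nhds ht₀
    have hp' := h.param ψ U hp
    have e1 : c =ᶠ[𝓝 t₀] ψ ∘ υ := by
      filter_upwards [hIn] with t ht
      exact heq t ht
    have e2 : γ ∘ c =ᶠ[𝓝 t₀] (γ ∘ ψ) ∘ υ := by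
      filter_upwards [hIn] with t ht
      show γ (c t) = γ (ψ (υ t))
      rw [heq t ht]
    have hυd : DifferentiableAt ℝ υ t₀ := (hυ.contDiffAt hIn).differentiableAt (by simp)
    refine ⟨?_, ?_⟩
    · have h1 : ContDiffOn ℝ 1 ((γ ∘ ψ) ∘ υ) I := ((if_smooth hp').of_le (by decide)).comp hυ hmaps
      exact (h1.contDiffAt hIn).congr_of_eventuallyEq e2
    · rw [if_speed_congr g e2.eq_of_nhds e2.deriv_eq, if_speed_congr g e1.eq_of_nhds e1.deriv_eq,
        if_speed_param g hp' hυd (hmaps ht₀), if_speed_param g hp hυd (hmaps ht₀), h.cm_eq ψ U hp _ (hmaps ht₀)]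
  exact ⟨contDiff_iff_contDiffAt.2 fun t => (key t).1, fun t => (key t).2⟩

/-- **leaf ISO-1**: local isometries do not increase `rdist` (plan in the header). -/
theorem IsLocI.rdist_le (h : IsLocI n X g γ) (hX : IsMfd n X) (hg : IsMetricOn n X g)
    (hc : IsPreconnected X) {x y : V} (hx : x ∈ X) (hy : y ∈ X) :
    rdist X g (γ x) (γ y) ≤ rdist X g x y := by
  refine if_le_rdist (if_join_of_connected hX hc hx hy) fun c hcA h0 h1 => ?_
  have hT : IsTenOn n X g := (if_isMetricOn_iff.1 hg).1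
  have hc' : ContDiff ℝ 1 (c ∘ if_st) := hcA.1.comp if_st_contDiff
  have hcX : ∀ t, (c ∘ if_st) t ∈ X := fun t => hcA.2 _ (if_st_mem t)
  obtain ⟨hd, hs⟩ := h.curve hX hc' hcX
  have hadm : if_Adm X (γ ∘ (c ∘ if_st)) := ⟨hd, fun t _ => by
    obtain ⟨ψ, U, hp, u, hu, he⟩ := hX _ (hcX t)
    show γ ((c ∘ if_st) t) ∈ X
    rw [← he]
    exact if_mem (h.param ψ U hp) hu⟩
  have hlen : if_len g (γ ∘ (c ∘ if_st)) = if_len g c := by
    unfold if_len
    rw [intervalIntegral.integral_congr (g := if_speed g (c ∘ if_st)) fun t _ => hs t,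
      if_integral_speed_comp hX hT hcA if_st_contDiff zero_le_one (fun t _ => if_st_mem t)
        fun t _ => if_st_deriv_nonneg t]
    simp [if_st]
  rw [← hlen]
  refine if_rdist_le' hadm g ?_ ?_
  · show γ (c (if_st 0)) = γ x
    simp [if_st, h0]
  · show γ (c (if_st 1)) = γ y
    simp [if_st, h1]

/-! ## isometries -/

theorem isIso_id : IsIso n X g id := ⟨isLocI_id, id, isLocI_id, fun _ _ => rfl, fun _ _ => rfl⟩

theorem IsIso.locI (h : IsIso n X g γ) : IsLocI n X g γ := h.1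

theorem IsIso.symm (h : IsIso n X g γ) :
    ∃ γ' : V → V, IsIso n X g γ' ∧ (∀ x ∈ X, γ' (γ x) = x) ∧ ∀ x ∈ X, γ (γ' x) = x := by
  obtain ⟨h1, γ', h2, h3, h4⟩ := h
  exact ⟨γ', ⟨h2, γ, h1, h4, h3⟩, h3, h4⟩

theorem IsIso.comp (hX : IsMfd n X) (h₁ : IsIso n X g γ₁) (h₂ : IsIso n X g γ₂) :
    IsIso n X g (γ₁ ∘ γ₂) := by
  obtain ⟨a1, δ₁, a2, a3, a4⟩ := h₁
  obtain ⟨b1, δ₂, b2, b3, b4⟩ := h₂
  refine ⟨a1.comp b1, δ₂ ∘ δ₁, b2.comp a2, fun x hx => ?_, fun x hx => ?_⟩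
  · simp only [Function.comp_apply]
    rw [a3 _ (b1.mapsTo hX hx), b3 x hx]
  · simp only [Function.comp_apply]
    rw [b4 _ (a2.mapsTo hX hx), a4 x hx]

theorem IsIso.rdist_eq (h : IsIso n X g γ) (hX : IsMfd n X) (hg : IsMetricOn n X g)
    (hc : IsPreconnected X) {x y : V} (hx : x ∈ X) (hy : y ∈ X) :
    rdist X g (γ x) (γ y) = rdist X g x y := by
  obtain ⟨h1, γ', h2, h3, -⟩ := h
  refine le_antisymm (h1.rdist_le hX hg hc hx hy) ?_
  have := h2.rdist_le hX hg hc (h1.mapsTo hX hx) (h1.mapsTo hX hy)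
  rwa [h3 x hx, h3 y hy] at this

theorem IsIso.image_cb (h : IsIso n X g γ) (hX : IsMfd n X) (hg : IsMetricOn n X g)
    (hc : IsPreconnected X) {x : V} (hx : x ∈ X) (R : ℝ) : γ '' cb X g x R = cb X g (γ x) R := by
  obtain ⟨γ', h', h3, h4⟩ := h.symm
  ext y
  constructor
  · rintro ⟨z, ⟨hz, hzR⟩, rfl⟩
    exact ⟨h.1.mapsTo hX hz, by rw [h.rdist_eq hX hg hc hx hz]; exact hzR⟩
  · rintro ⟨hy, hyR⟩
    refine ⟨γ' y, ⟨h'.1.mapsTo hX hy, ?_⟩, h4 y hy⟩
    rw [← h.rdist_eq hX hg hc hx (h'.1.mapsTo hX hy), h4 y hy]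
    exact hyR

/-! ## `UCont` -/

theorem UCont.isRd (h : UCont n X g) : IsRd X g := if_isRd h.mfd h.conn h.met

theorem UCont.isTen (h : UCont n X g) : IsTenOn n X g := (if_isMetricOn_iff.1 h.met).1

theorem UCont.isCompact_cb (h : UCont n X g) {x : V} (hx : x ∈ X) (R : ℝ) :
    IsCompact (cb X g x R) := h.proper x hx R

theorem cb_subset (X : Set V) (g : Ten V) (x : V) (R : ℝ) : cb X g x R ⊆ X := fun _ hy => hy.1

theorem UCont.rdist_continuousOn₂ (h : UCont n X g) :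
    ContinuousOn (fun p : V × V => rdist X g p.1 p.2) (X ×ˢ X) :=
  if_rdist_continuousOn₂ h.mfd h.conn.isPreconnected h.isTen

theorem UCont.iso_rdist (h : UCont n X g) (hγ : IsIso n X g γ) {x y : V} (hx : x ∈ X)
    (hy : y ∈ X) : rdist X g (γ x) (γ y) = rdist X g x y :=
  hγ.rdist_eq h.mfd h.met h.conn.isPreconnected hx hy

/-- a base point `x₀` and a radius `D` such that every point can be moved into `cb x₀ D` by an isometry. -/
theorem UCont.exists_center (h : UCont n X g) :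
    ∃ x₀ ∈ X, ∃ D : ℝ, 0 ≤ D ∧ ∀ x ∈ X, ∃ γ : V → V, IsIso n X g γ ∧ rdist X g x₀ (γ x) ≤ D := by
  obtain ⟨K, hK, hKX, hcov⟩ := h.cocpt
  obtain ⟨x₀, hx₀⟩ := h.conn.nonempty
  have hcont : ContinuousOn (rdist X g x₀) K := (h.isRd.cont x₀ hx₀).mono hKX
  obtain ⟨D, hD⟩ := (hK.image_of_continuousOn hcont).bddAbove
  refine ⟨x₀, hx₀, max D 0, le_max_right _ _, fun x hx => ?_⟩
  obtain ⟨γ, hγ, hγK⟩ := hcov x hx
  exact ⟨γ, hγ, (hD (mem_image_of_mem _ hγK)).trans (le_max_left _ _)⟩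

/-! ## isometries from an atlas (helper29; consumers: PROD, UCM) -/

/-- construction of a parametrisation from a continuous left inverse (copy of `R315.pk_param_mk`). -/
theorem param_mk {ψ : E n → V} {U : Set (E n)} (hU : IsOpen U)
    (hs : ContDiffOn ℝ ∞ ψ U) (himm : ∀ u ∈ U, Function.Injective (fderiv ℝ ψ u)) {O : Set V}
    (hO : IsOpen O) (him : ψ '' U = X ∩ O) {g : V → E n} (hg : ContinuousOn g (ψ '' U))
    (hl : ∀ u ∈ U, g (ψ u) = u) : IsParam X ψ U := by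
  have hinj : Set.InjOn ψ U := fun u hu u' hu' he => by rw [← hl u hu, he, hl u' hu']
  refine ⟨hU, hs, himm, hinj, ⟨O, hO, him⟩, hg.congr ?_⟩
  rintro _ ⟨u, hu, rfl⟩
  rw [hl u hu]
  exact hinj.leftInvOn_invFunOn hu

variable {γ' : V → V}

/-- **local isometries from an atlas**: a map with a continuous two sided inverse on `X` which is a local isometry in the sense of `LocIso`
(ONE good parametrisation around every point) maps ALL parametrisations to parametrisations with the same metric matrix. -/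
theorem isLocI_of_locIso (hγ : LocIso n X g X g γ) (hc' : ContinuousOn γ' X) (hm' : MapsTo γ' X X)
    (h3 : ∀ x ∈ X, γ' (γ x) = x) (h4 : ∀ x ∈ X, γ (γ' x) = x) : IsLocI n X g γ := by
  -- local structure
  have key : ∀ (φ : E n → V) (W : Set (E n)), IsParam X φ W → ∀ w ∈ W,
      ∃ (ψ : E n → V) (U : Set (E n)), IsParam X ψ U ∧ IsParam X (γ ∘ ψ) U ∧
        (∀ u ∈ U, cm g (γ ∘ ψ) u = cm g ψ u) ∧ w ∈ if_trDom φ W ψ U ∧
        γ ∘ φ =ᶠ[𝓝 w] (γ ∘ ψ) ∘ if_tr ψ U φ := by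
    intro φ W hp w hw
    obtain ⟨ψ, U, h1, ⟨u, hu, hue⟩, h2, h5⟩ := hγ (φ w) (if_mem hp hw)
    have hd : w ∈ if_trDom φ W ψ U := if_mem_trDom hw hu hue.symm
    refine ⟨ψ, U, h1, h2, h5, hd, ?_⟩
    filter_upwards [if_eventuallyEq_comp_tr hp h1 hd] with z hz
    show γ (φ z) = γ (ψ (if_tr ψ U φ z))
    rw [hz]
    rfl
  have hder : ∀ (φ : E n → V) (W : Set (E n)), IsParam X φ W → ∀ w ∈ W,
      ∀ (ψ : E n → V) (U : Set (E n)), IsParam X ψ U → IsParam X (γ ∘ ψ) U →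
        w ∈ if_trDom φ W ψ U → γ ∘ φ =ᶠ[𝓝 w] (γ ∘ ψ) ∘ if_tr ψ U φ →
        fderiv ℝ (γ ∘ φ) w =
          (fderiv ℝ (γ ∘ ψ) (if_tr ψ U φ w)).comp (fderiv ℝ (if_tr ψ U φ) w) := by
    intro φ W hp w hw ψ U h1 h2 hd he
    rw [he.fderiv_eq]
    exact fderiv_comp w (if_differentiableAt h2 (if_tr_mem hd)) (if_tr_differentiableAt hp h1 hd)
  refine ⟨fun φ W hp => ?_, fun φ W hp w hw => ?_⟩
  · obtain ⟨O₁, hO₁, hOe⟩ := if_image hp
    obtain ⟨O, hO, hOO⟩ := (continuousOn_iff'.1 hc') O₁ hO₁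
    refine param_mk (O := O) (g := fun y => Function.invFunOn φ W (γ' y)) (if_open hp) ?_ ?_ hO
      ?_ ?_ ?_
    · intro w hw
      obtain ⟨ψ, U, h1, h2, -, hd, he⟩ := key φ W hp w hw
      refine ContDiffAt.contDiffWithinAt (ContDiffAt.congr_of_eventuallyEq ?_ he)
      exact ContDiffAt.comp w (if_contDiffAt h2 (if_tr_mem hd)) (if_tr_contDiffAt hp h1 hd)
    · intro w hw
      obtain ⟨ψ, U, h1, h2, -, hd, he⟩ := key φ W hp w hw
      rw [hder φ W hp w hw ψ U h1 h2 hd he]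
      have hi : Function.Injective (fderiv ℝ (if_tr ψ U φ) w) := by
        have h6 := if_imm hp hw
        rw [if_fderiv_eq hp h1 hd] at h6
        exact Function.Injective.of_comp (f := fderiv ℝ ψ (if_tr ψ U φ w)) h6
      exact (if_imm h2 (if_tr_mem hd)).comp hi
    · ext y
      constructor
      · rintro ⟨w, hw, rfl⟩
        have hx := if_mem hp hw
        have hy : γ (φ w) ∈ X := hγ.mapsTo hx
        have h7 : γ (φ w) ∈ γ' ⁻¹' O₁ ∩ X := by
          refine ⟨?_, hy⟩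
          show γ' (γ (φ w)) ∈ O₁
          rw [h3 _ hx]
          exact (hOe ▸ mem_image_of_mem φ hw : φ w ∈ X ∩ O₁).2
        rw [hOO] at h7
        exact ⟨hy, h7.1⟩
      · rintro ⟨hy, hyO⟩
        have h7 : y ∈ γ' ⁻¹' O₁ ∩ X := by
          rw [hOO]
          exact ⟨hyO, hy⟩
        have h8 : γ' y ∈ φ '' W := by
          rw [hOe]
          exact ⟨hm' hy, h7.1⟩
        obtain ⟨w, hw, hwe⟩ := h8
        exact ⟨w, hw, by show γ (φ w) = y; rw [hwe, h4 y hy]⟩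
    · refine (if_contInv hp).comp (hc'.mono ?_) ?_
      · rintro _ ⟨w, hw, rfl⟩
        exact hγ.mapsTo (if_mem hp hw)
      · rintro _ ⟨w, hw, rfl⟩
        show γ' (γ (φ w)) ∈ φ '' W
        rw [h3 _ (if_mem hp hw)]
        exact mem_image_of_mem φ hw
    · intro w hw
      show Function.invFunOn φ W (γ' (γ (φ w))) = w
      rw [h3 _ (if_mem hp hw), if_leftInv hp hw]
  · obtain ⟨ψ, U, h1, h2, h5, hd, he⟩ := key φ W hp w hw
    have hu := if_tr_mem hd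
    ext i j
    have e1 : cm g (γ ∘ φ) w i j = if_bil (cm g (γ ∘ ψ) (if_tr ψ U φ w))
        (fderiv ℝ (if_tr ψ U φ) w (eb i)) (fderiv ℝ (if_tr ψ U φ) w (eb j)) := by
      rw [if_cm_bil]
      show g (γ (φ w)) (fderiv ℝ (γ ∘ φ) w (eb i)) (fderiv ℝ (γ ∘ φ) w (eb j)) = _
      rw [hder φ W hp w hw ψ U h1 h2 hd he]
      show _ = g (γ (ψ (if_tr ψ U φ w))) _ _
      rw [if_tr_spec hd]
      rfl
    have e2 : cm g φ w i j = if_bil (cm g ψ (if_tr ψ U φ w))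
        (fderiv ℝ (if_tr ψ U φ) w (eb i)) (fderiv ℝ (if_tr ψ U φ) w (eb j)) := by
      rw [if_cm_bil]
      show g (φ w) (fderiv ℝ φ w (eb i)) (fderiv ℝ φ w (eb j)) = _
      rw [if_fderiv_eq hp h1 hd, if_tr_spec hd]
      rfl
    rw [e1, e2, h5 _ hu]

/-- isometries from an atlas. -/
theorem isIso_of_locIso (hγ : LocIso n X g X g γ) (hγ' : LocIso n X g X g γ')
    (h3 : ∀ x ∈ X, γ' (γ x) = x) (h4 : ∀ x ∈ X, γ (γ' x) = x) : IsIso n X g γ := by
  have hc : ∀ {δ : V → V}, LocIso n X g X g δ → ContinuousOn δ X := by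
    intro δ hδ
    have h1 : SmoothAlong n X (id ∘ δ) :=
      hδ.smooth (f := (id : V → V)) fun ψ U hp => if_smooth hp
    exact if_smoothAlong_continuousOn hδ.mfd h1
  exact ⟨isLocI_of_locIso hγ (hc hγ') hγ'.mapsTo h3 h4, γ',
    isLocI_of_locIso hγ' (hc hγ) hγ.mapsTo h4 h3, h3, h4⟩

end Claimed.Agent.R314
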