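import Claimed.Agent.R314.LocIso
import Claimed.Agent.R314.UC.Main
import Claimed.Agent.R314.T.HT1
import Claimed.Agent.R314.T.Main
import Claimed.Agent.R314.Prod.Main
import Claimed.Agent.R314.B.Main
import Claimed.Agent.R314.C.Main

/-!
# Row 314 (S0570): the top glue

`main` : `M` compact `n`-manifold in `E N`, `Fill k M` for `k ≥ 3`, `g` a metric with `scal ≥ 0` ⟹ `Flat n M g`,
from the exit contracts of the blocks
* `uc_main` (UC), `no_cover`, `surj_of_bdd` (T), `fill_of_pi` (HT1), `prod_main` (PROD), `drift_of_not_ricFlat` (B), `flat_of_ricFlat` (C)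
and the two theorems `H3`, `H4` of row 315 (`t3_main`, `n4_main`; they are hypotheses here so that this file does not import the whole of R315;
they are plugged in in `R314/Final.lean`).
Captain: helper258.
-/

set_option autoImplicit false
open scoped ContDiff Topology
open Set Claims.C0499 Claimed.Agent.R315

namespace Claimed.Agent.R314

/-- `R315.t3_main`. -/
def H3 : Prop := ∀ (N : ℕ) (M : Set (E N)) (g : Ten (E N)) (w : E N → ℝ),
  Drift 3 M g w (3 / 4) → HasCover 2 M g 500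

/-- `R315.n4_main`. -/
def H4 : Prop := ∀ n : ℕ, 4 ≤ n → ∃ C : ℝ, ∀ (N : ℕ) (M : Set (E N)) (g : Ten (E N)) (w : E N → ℝ),
  Drift n M g w (3 / 4) → HasCover (n - 1) M g C

variable {V : Type} [NormedAddCommGroup V] [NormedSpace ℝ V]

/-! ## small facts -/

theorem hasCover_mono {k k' : ℕ} (hk : k ≤ k') {M : Set V} {g : Ten V} {C : ℝ}
    (h : HasCover k M g C) : HasCover k' M g C := by
  obtain ⟨ι, U, h1, h2, h3, h4, h5⟩ := h
  exact ⟨ι, U, h1, h2, h3, fun x hx s hs => (h4 x hx s hs).trans hk, h5⟩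

theorem IsLocI.smul {n : ℕ} {X : Set V} {g : Ten V} {γ : V → V} (h : IsLocI n X g γ) (c : ℝ) :
    IsLocI n X (c • g) γ :=
  ⟨h.param, fun ψ U hp u hu => by rw [if_cm_smul, if_cm_smul]; simp only [h.cm_eq ψ U hp u hu]⟩

theorem IsIso.smul {n : ℕ} {X : Set V} {g : Ten V} {γ : V → V} (h : IsIso n X g γ) (c : ℝ) :
    IsIso n X (c • g) γ := by
  obtain ⟨h1, γ', h2, h3, h4⟩ := h
  exact ⟨h1.smul c, γ', h2.smul c, h3, h4⟩

theorem UCont.smul {n : ℕ} {X : Set V} {g : Ten V} (h : UCont n X g) {c : ℝ} (hc : 0 < c) :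
    UCont n X (c • g) where
  mfd := h.mfd
  closed := h.closed
  conn := h.conn
  met := if_isMetricOn_smul hc h.met
  proper := if_proper_smul hc h.proper
  fill := h.fill
  cocpt := by
    obtain ⟨K, h1, h2, h3⟩ := h.cocpt
    refine ⟨K, h1, h2, fun x hx => ?_⟩
    obtain ⟨γ, h4, h5⟩ := h3 x hx
    exact ⟨γ, h4.smul c, h5⟩

/-! ## block (A): no positive drift -/

theorem UCont.drift {n : ℕ} {X : Set V} {g : Ten V} (h : UCont n X g) {w : V → ℝ}
    (hw : SmoothAlong n X w) {c : ℝ} (hc : 0 < c) (hb : ∀ x ∈ X, c ≤ Dsc n X g w x) :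
    Drift n X ((4 / 3 * c) • g) w (3 / 4) := by
  have hc' : 0 < 4 / 3 * c := by positivity
  have h' := h.smul hc'
  refine ⟨h'.mfd, h'.closed, h'.conn, h'.met, h'.proper, hw, fun x hx => ?_⟩
  rw [if_Dsc_smul hc']
  have h1 := hb x hx
  rw [← div_eq_inv_mul, le_div_iff₀ hc']
  linarith

/-- **(A)** for dimensions `≥ 3`. -/
theorem no_drift3 (h3 : H3) (h4 : H4) {n N : ℕ} (hn : 3 ≤ n) {X : Set (E N)} {g : Ten (E N)}
    (h : UCont n X g) {w : E N → ℝ} (hw : SmoothAlong n X w) {c : ℝ} (hc : 0 < c)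
    (hb : ∀ x ∈ X, c ≤ Dsc n X g w x) : False := by
  have hD := h.drift hw hc hb
  have hU : UCont n X ((4 / 3 * c) • g) := h.smul (by positivity)
  rcases Nat.lt_or_ge n 4 with h' | h'
  · obtain rfl : n = 3 := by omega
    exact no_cover hU 500 (hasCover_mono (by norm_num) (h3 N X _ w hD))
  · obtain ⟨C, hC⟩ := h4 n h'
    exact no_cover hU C (hasCover_mono (by omega) (hC N X _ w hD))

/-- **(A)**: a uniformly contractible cocompact manifold of dimension `≥ 2` has no function `w` with `Dsc ≥ c > 0`. -/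
theorem no_drift (h3 : H3) (h4 : H4) {n N : ℕ} (hn : 2 ≤ n) {X : Set (E N)} {g : Ten (E N)}
    (h : UCont n X g) {w : E N → ℝ} (hw : SmoothAlong n X w) {c : ℝ} (hc : 0 < c)
    (hb : ∀ x ∈ X, c ≤ Dsc n X g w x) : False := by
  rcases Nat.lt_or_ge n 3 with h' | h'
  · obtain ⟨N', X', g', w', hU, hw', hb'⟩ := prod_main h hw hb
    exact no_drift3 h3 h4 (by omega) hU hw' hc hb'
  · exact no_drift3 h3 h4 h' h hw hc hb

/-! ## the covering -/

section cov

variable {n N N' : ℕ} {M : Set (E N)} {X : Set (E N')} {P : E N' →L[ℝ] E N}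

theorem IsCov.locIso (hcov : IsCov n X M P) (hX : IsMfd n X) (g : Ten (E N)) :
    LocIso n X (if_pullL P g) M g P := by
  refine locIso_pullL P g fun x hx => ?_
  obtain ⟨ψ, U, hp, u, hu, rfl⟩ := hX x hx
  obtain ⟨W, hW, huW, hWU, hpW⟩ := hcov.down ψ U hp u hu
  exact ⟨ψ, W, if_mono hp hW hWU, ⟨u, huW, rfl⟩, hpW⟩

theorem cm_pullL_eventuallyEq (g : Ten (E N)) {ψ : E n → E N'} {U : Set (E n)}
    (hp : IsParam X ψ U) {u : E n} (hu : u ∈ U) :
    cm (if_pullL P g) ψ =ᶠ[𝓝 u] cm g (P ∘ ψ) := by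
  filter_upwards [(if_open hp).mem_nhds hu] with w hw
  exact (cm_pullL P g (if_differentiableAt hp hw)).symm

theorem IsCov.ricFlat (hcov : IsCov n X M P) {g : Ten (E N)} (hR : RicFlat n M g) :
    RicFlat n X (if_pullL P g) := by
  intro ψ U hp u hu j k
  obtain ⟨W, hW, huW, hWU, hpW⟩ := hcov.down ψ U hp u hu
  rw [if_ricci_congr (cm_pullL_eventuallyEq g hp hu)]
  exact hR _ W hpW u huW j k

theorem IsCov.flat (hcov : IsCov n X M P) {g : Ten (E N)} (hF : Flat n X (if_pullL P g)) :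
    Flat n M g := by
  intro φ U hp u hu l i j k
  obtain ⟨x, hx, hxu⟩ := hcov.surj (if_mem hp hu)
  obtain ⟨ψ, W, hW, huW, hWU, hpW, -, hPψ⟩ := hcov.up φ U hp u hu x hx hxu
  have h1 : cm g φ =ᶠ[𝓝 u] cm (if_pullL P g) ψ := by
    have h2 : cm g φ =ᶠ[𝓝 u] cm g (P ∘ ψ) := by
      filter_upwards [eventually_eventually_nhds.2 (hW.mem_nhds huW)] with w hw
      have h3 : φ =ᶠ[𝓝 w] P ∘ ψ := by
        filter_upwards [hw] with z hz
        exact (hPψ z hz).symm
      ext a b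
      simp only [cm, Matrix.of_apply, h3.fderiv_eq, h3.self_of_nhds]
    exact h2.trans (cm_pullL_eventuallyEq g hpW huW).symm
  rw [if_riemann_congr h1]
  exact hF ψ W hpW u huW l i j k

end cov

/-! ## low dimensions -/

theorem flat_low {n : ℕ} (hn : n ≤ 1) (M : Set V) (g : Ten V) : Flat n M g := by
  intro ψ U _ u _ l i j k
  have : Subsingleton (Fin n) := by
    interval_cases n
    · infer_instance
    · infer_instance
  obtain rfl := Subsingleton.elim i j
  simp [riemannCoord]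

/-! ## the connected case -/

theorem scal_nonneg_of_chart {n : ℕ} [FiniteDimensional ℝ V] {M : Set V} {g : Ten V} (hM : IsMfd n M)
    (hg : IsMetricOn n M g)
    (hs : ∀ (ψ : E n → V) (U : Set (E n)), IsParam M ψ U → ∀ u ∈ U, 0 ≤ scalarCoord (cm g ψ) u)
    {x : V} (hx : x ∈ M) : 0 ≤ scal n M g x := by
  obtain ⟨ψ, U, hp, u, hu, rfl⟩ := hM x hx
  rw [if_scal_eq hg hp hu]
  exact hs ψ U hp u hu

theorem main_conn (h3 : H3) (h4 : H4) {n N : ℕ} {M : Set (E N)} (hc : IsCompact M)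
    (hconn : IsConnected M) (hM : IsMfd n M) (hfill : ∀ k, 3 ≤ k → Fill k M) {g : Ten (E N)}
    (hg : IsMetricOn n M g)
    (hs : ∀ (ψ : E n → E N) (U : Set (E n)), IsParam M ψ U → ∀ u ∈ U,
      0 ≤ scalarCoord (cm g ψ) u) : Flat n M g := by
  rcases Nat.lt_or_ge n 2 with hn | hn
  · exact flat_low (by omega) M g
  obtain ⟨N', X, P, hcov, hU⟩ := uc_main hc hconn hM hfill
  by_cases hR : RicFlat n M g
  · exact hcov.flat (flat_of_ricFlat (hU g hg) (hcov.ricFlat hR))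
  · exfalso
    obtain ⟨g', w, c, hg', hw, hc0, hb⟩ := drift_of_not_ricFlat hc hconn hM hg
      (fun x hx => scal_nonneg_of_chart hM hg hs hx) hR
    have hX := hU g' hg'
    have hι := hcov.locIso hX.mfd g'
    refine no_drift h3 h4 hn hX (hι.smooth hw) hc0 fun x hx => ?_
    rw [← hι.Dsc hg' hw hx]
    exact hb _ (hcov.mapsTo hx)

/-! ## reduction to a connected component -/

/-- every point of a manifold has an open neighbourhood whose trace is connected. -/
theorem comp_loc {n : ℕ} {M : Set V} (hM : IsMfd n M) {y : V} (hy : y ∈ M) :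
    ∃ O : Set V, IsOpen O ∧ y ∈ O ∧ IsPreconnected (M ∩ O) := by
  obtain ⟨ψ, U, hp, u, hu, rfl⟩ := hM y hy
  obtain ⟨r, hr, hrU⟩ := Metric.isOpen_iff.1 (if_open hp) u hu
  have hp' := if_mono hp Metric.isOpen_ball hrU
  obtain ⟨O, hO, he⟩ := if_image hp'
  have hmem : ψ u ∈ M ∩ O := he ▸ mem_image_of_mem ψ (Metric.mem_ball_self hr)
  refine ⟨O, hO, hmem.2, ?_⟩
  rw [← he]
  exact (convex_ball u r).isPreconnected.image ψ (if_continuousOn hp')

/-- **leaf TOP-COMP**: the connected component of `x` in the compact manifold `M` is `M ∩ O` for an open `O`; it is compact, connected and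
absorbs connected subsets of `M` which meet it.
PLAN: `M₀ = connectedComponentIn M x`.  Every point `y` of `M` has a connected relative neighbourhood (`ψ '' ball`, `if_image_open`), hence `M₀` and `M \ M₀`
are relatively open in `M`; `O` from the relative openness; `M₀` is closed in `M` (complement relatively open), hence compact;
`IsPreconnected.subset_connectedComponentIn`. -/
theorem comp_open {n : ℕ} [FiniteDimensional ℝ V] {M : Set V} (hc : IsCompact M) (hM : IsMfd n M) {x : V}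
    (hx : x ∈ M) :
    ∃ O : Set V, IsOpen O ∧ x ∈ O ∧ IsConnected (M ∩ O) ∧ IsCompact (M ∩ O) ∧
      ∀ S : Set V, IsPreconnected S → S ⊆ M → (S ∩ (M ∩ O)).Nonempty → S ⊆ M ∩ O := by
  set M₀ := connectedComponentIn M x with hM₀
  have habs : ∀ S : Set V, IsPreconnected S → S ⊆ M → (S ∩ M₀).Nonempty → S ⊆ M₀ := by
    rintro S hS hSM ⟨z, hzS, hz0⟩
    have h1 : connectedComponentIn M z = M₀ := (connectedComponentIn_eq hz0).symm
    rw [← h1]
    exact hS.subset_connectedComponentIn hzS hSM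
  have hsub : M₀ ⊆ M := connectedComponentIn_subset M x
  set O : Set V := ⋃₀ {O' | IsOpen O' ∧ IsPreconnected (M ∩ O') ∧ ((M ∩ O') ∩ M₀).Nonempty} with hOdef
  set O₂ : Set V := ⋃₀ {O' | IsOpen O' ∧ IsPreconnected (M ∩ O') ∧ ¬ ((M ∩ O') ∩ M₀).Nonempty}
    with hO₂def
  have hO : IsOpen O := isOpen_sUnion fun O' h => h.1
  have hO₂ : IsOpen O₂ := isOpen_sUnion fun O' h => h.1
  have e1 : M ∩ O = M₀ := by
    apply Subset.antisymm
    · rintro y ⟨hyM, O', ⟨-, h2, h3⟩, hyO'⟩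
      exact habs _ h2 inter_subset_left h3 ⟨hyM, hyO'⟩
    · intro y hy
      obtain ⟨O', h1, h2, h3⟩ := comp_loc hM (hsub hy)
      exact ⟨hsub hy, O', ⟨h1, h3, ⟨y, ⟨hsub hy, h2⟩, hy⟩⟩, h2⟩
  have e2 : M₀ = M ∩ O₂ᶜ := by
    apply Subset.antisymm
    · intro y hy
      refine ⟨hsub hy, ?_⟩
      rintro ⟨O', ⟨-, -, h3⟩, hyO'⟩
      exact h3 ⟨y, ⟨hsub hy, hyO'⟩, hy⟩
    · rintro y ⟨hyM, hyO⟩
      obtain ⟨O', h1, h2, h3⟩ := comp_loc hM hyM
      by_cases h4 : ((M ∩ O') ∩ M₀).Nonempty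
      · exact habs _ h3 inter_subset_left h4 ⟨hyM, h2⟩
      · exact absurd ⟨O', ⟨h1, h3, h4⟩, h2⟩ hyO
  have hx0 : x ∈ M₀ := mem_connectedComponentIn hx
  refine ⟨O, hO, (e1 ▸ hx0 : x ∈ M ∩ O).2, ?_, ?_, ?_⟩
  · rw [e1]
    exact isConnected_connectedComponentIn_iff.2 hx
  · rw [e1, e2]
    exact hc.inter_right hO₂.isClosed_compl
  · rw [e1]
    exact habs

/-- **leaf TOP-CUBE**: the cube is connected and its boundary is nonempty for `k ≥ 1`. -/
theorem cube_facts (k : ℕ) (hk : 1 ≤ k) :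
    IsPreconnected (cube k) ∧ (cbd k).Nonempty ∧ cbd k ⊆ cube k := by
  refine ⟨(convex_Icc _ _).isPreconnected, ⟨0, ⟨le_refl _, zero_le_one⟩, ⟨⟨0, hk⟩, Or.inl rfl⟩⟩,
    fun x hx => hx.1⟩

theorem Fill.comp {k : ℕ} (hk : 1 ≤ k) {M M₀ : Set V} (h : Fill k M) (hsub : M₀ ⊆ M)
    (hmax : ∀ S : Set V, IsPreconnected S → S ⊆ M → (S ∩ M₀).Nonempty → S ⊆ M₀) : Fill k M₀ := by
  intro f hf hm
  obtain ⟨F, hF, hFm, hFe⟩ := h f hf (hm.mono_right hsub)
  obtain ⟨h1, ⟨b, hb⟩, h3⟩ := cube_facts k hk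
  refine ⟨F, hF, ?_, hFe⟩
  have h4 : F '' cube k ⊆ M₀ := hmax _ (h1.image F hF) hFm.image_subset
    ⟨F b, mem_image_of_mem F (h3 hb), by rw [hFe hb]; exact hm hb⟩
  exact fun y hy => h4 (mem_image_of_mem F hy)

/-- **the internal form of S0570.** -/
theorem main (h3 : H3) (h4 : H4) {n N : ℕ} {M : Set (E N)} (hc : IsCompact M) (hM : IsMfd n M)
    (hfill : ∀ k, 3 ≤ k → Fill k M) {g : Ten (E N)} (hg : IsMetricOn n M g)
    (hs : ∀ (ψ : E n → E N) (U : Set (E n)), IsParam M ψ U → ∀ u ∈ U,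
      0 ≤ scalarCoord (cm g ψ) u) : Flat n M g := by
  intro ψ U hp u hu l i j k
  obtain ⟨O, hO, hxO, hconn, hcomp, hmax⟩ := comp_open hc hM (if_mem hp hu)
  have hF : Flat n (M ∩ O) g := main_conn h3 h4 hcomp hconn (if_mfd_inter hM hO)
    (fun k hk => (hfill k hk).comp (by omega) inter_subset_left hmax) (if_isMetricOn_inter hg hO)
    (fun ψ' U' hp' u' hu' => hs ψ' U' (if_param_of_inter hO hp') u' hu')
  have hW : IsOpen (U ∩ ψ ⁻¹' O) := (if_continuousOn hp).isOpen_inter_preimage (if_open hp) hO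
  have hp' : IsParam (M ∩ O) ψ (U ∩ ψ ⁻¹' O) :=
    if_param_inter (if_mono hp hW inter_subset_left) (by rintro _ ⟨w, hw, rfl⟩; exact hw.2)
  exact hF ψ _ hp' u ⟨hu, hxO⟩ l i j k

end Claimed.Agent.R314
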