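import Claimed.Prelude.Def_0498
import Claimed.Agent.R314.Top

/-!
# Row 314 (S0570): the frozen statement from `main`

`Def_0498` and `Def_0499` are textually identical; all identifications are `rfl`.
-/

set_option autoImplicit false
open scoped ContDiff Topology
open Set Claimed.Agent.R315

namespace Claimed.Agent.R314

theorem br_pdiff : @Claims.C0498.pdiff = @Claims.C0499.pdiff := rfl
theorem br_christoffel : @Claims.C0498.christoffel = @Claims.C0499.christoffel := rfl
theorem br_riemann : @Claims.C0498.riemannCoord = @Claims.C0499.riemannCoord := rfl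
theorem br_ricci : @Claims.C0498.ricciCoord = @Claims.C0499.ricciCoord := rfl
theorem br_scalar : @Claims.C0498.scalarCoord = @Claims.C0499.scalarCoord := rfl
theorem br_param : @Claims.C0498.IsLocalParam = @Claims.C0499.IsLocalParam := rfl
theorem br_cm : @Claims.C0498.coordMetric = @Claims.C0499.coordMetric := rfl

/-- the frozen statement of S0570, modulo the two theorems of row 315. -/
theorem frozen_of (h3 : H3) (h4 : H4) (N n : ℕ) (M : Set (EuclideanSpace ℝ (Fin N)))
    (hM : Claims.C0498.IsClosedSubmanifold n M)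
    (hasph : ∀ k : ℕ, 2 ≤ k → ∀ x : M, Subsingleton (π_ k M x))
    (g : EuclideanSpace ℝ (Fin N) →
      EuclideanSpace ℝ (Fin N) →L[ℝ] EuclideanSpace ℝ (Fin N) →L[ℝ] ℝ)
    (hg : ContDiff ℝ ∞ g)
    (hpos : ∀ (ψ : EuclideanSpace ℝ (Fin n) → EuclideanSpace ℝ (Fin N))
      (U : Set (EuclideanSpace ℝ (Fin n))), Claims.C0498.IsLocalParam M ψ U → ∀ u ∈ U,
        (Claims.C0498.coordMetric g ψ u).PosDef)
    (hscal : ∀ (ψ : EuclideanSpace ℝ (Fin n) → EuclideanSpace ℝ (Fin N))
      (U : Set (EuclideanSpace ℝ (Fin n))), Claims.C0498.IsLocalParam M ψ U → ∀ u ∈ U,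
        0 ≤ Claims.C0498.scalarCoord (Claims.C0498.coordMetric g ψ) u) :
    ∀ (ψ : EuclideanSpace ℝ (Fin n) → EuclideanSpace ℝ (Fin N))
      (U : Set (EuclideanSpace ℝ (Fin n))), Claims.C0498.IsLocalParam M ψ U → ∀ u ∈ U,
        ∀ l i j k : Fin n, Claims.C0498.riemannCoord (Claims.C0498.coordMetric g ψ) u l i j k = 0 := by
  have hmfd : IsMfd n M := hM.2
  have hmet : IsMetricOn n M g :=
    if_isMetricOn_iff.2 ⟨if_isTenOn_of_near (if_smoothNear_of_contDiff hg), hpos⟩
  have hfill : ∀ k, 3 ≤ k → Fill k M := by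
    intro k hk
    obtain ⟨k, rfl⟩ : ∃ j, k = j + 1 := ⟨k - 1, by omega⟩
    exact fill_of_pi M k (by omega) (hasph k (by omega))
  exact main h3 h4 hM.1 hmfd hfill hmet hscal

end Claimed.Agent.R314
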